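import Vale.Agent.P284.H205.K.Chg

/-!
# P284 (helper136), K8 (C): pull back of the Chern derivative by a holomorphic map `Cⁿ → C^q`
-/

open scoped ContDiff Topology ComplexConjugate ComplexOrder ENNReal
open Filter Set MeasureTheory

noncomputable section

namespace Vale.Agent.P284.H136.K8

open Vale.Agent.P272.K Vale.Agent.P284.H608.K Vale.Agent.P284.H205.K

variable {n q p : ℕ} {V : Type} [NormedAddCommGroup V] [NormedSpace ℂ V]

open ContinuousAlternatingMap in
lemma alt_comp' (L : Cm n →L[ℂ] Cm q) (C : Cm q →L[ℂ] Af q p) :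
    alternatizeUncurryFin (compContinuousLinearMapCLM L ∘L C ∘L L) =
      (alternatizeUncurryFin C).compContinuousLinearMap L := by
  ext v
  simp +unfoldPartialApp [alternatizeUncurryFin_apply, Fin.removeNth, Function.comp_def]

/-- the conjugate of a linear map -/
def cjR (L : Cm n →L[ℂ] Cm q) : Cm n →L[ℂ] Cm q where
  toFun v := cjm q (L (cjm n v))
  map_add' u v := by simp
  map_smul' c v := by
    rw [cjm_smul, map_smul, cjm_smul]; simp
  cont := (cjm q).continuous.comp (L.continuous.comp (cjm n).continuous)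

@[simp] lemma cjR_apply (L : Cm n →L[ℂ] Cm q) (v : Cm n) : cjR L v = cjm q (L (cjm n v)) := rfl

lemma comp_holo' {η : Cm q → V} {A B : Cm q →L[ℂ] V} {F : Cm n → Cm q} {L : Cm n →L[ℂ] Cm q}
    {z : Cm n} (h : HasW η A B (F z)) (hF : HasFDerivAt F L z) :
    HasW (fun y => η (F y)) (A.comp L) (B.comp (cjR L)) z := by
  have := HasFDerivAt.comp z h (hF.restrictScalars ℝ)
  refine HasFDerivAt.congr_fderiv this ?_
  ext v; simp

open ContinuousAlternatingMap in
lemma compCLM' {η : Cm n → Af q p} {A B : Cm n →L[ℂ] Af q p} {F : Cm n → Cm n →L[ℂ] Cm q}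
    {D : Cm n →L[ℂ] Cm n →L[ℂ] Cm q} {z : Cm n} (h : HasW η A B z) (hF : HasFDerivAt F D z) :
    HasW (fun y => (η y).compContinuousLinearMap (F y))
      (compContinuousLinearMapCLM (F z) ∘L A + (η z).fderivCompContinuousLinearMap (F z) ∘L D)
      (compContinuousLinearMapCLM (F z) ∘L B) z := by
  have h1 := (ContinuousAlternatingMap.hasStrictFDerivAt_compContinuousLinearMap (𝕜 := ℂ)
    (η z, F z)).hasFDerivAt.restrictScalars ℝ
  have h2 : HasFDerivAt (fun y => (η y, F y)) _ z := HasFDerivAt.prodMk h (hF.restrictScalars ℝ)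
  have := HasFDerivAt.comp z (g := fun fg : Af q p × (Cm n →L[ℂ] Cm q) =>
    fg.1.compContinuousLinearMap fg.2) h1 h2
  refine HasFDerivAt.congr_fderiv this ?_
  ext v; simp; ring

/-- the connection form -/
lemma phi_chg' {F : Cm n → Cm q} {L : Cm n →L[ℂ] Cm q} {a : Cm n → ℂ} {a' : Cm n →L[ℂ] ℂ}
    {φ : Cm n → ℝ} {φ' : Cm q → ℝ} {z : Cm n}
    (hF : HasFDerivAt F L z) (ha : HasFDerivAt a a' z) (ha0 : a z ≠ 0)
    (hφ : DifferentiableAt ℝ φ z) (hφ' : DifferentiableAt ℝ φ' (F z))
    (h : ∀ᶠ y in 𝓝 z, Real.exp (-φ y) * ‖a y‖ ^ 2 = Real.exp (-φ' (F y))) :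
    a z • pL (fun y => (φ y : ℂ)) z =
      a' + a z • (pL (fun y => (φ' y : ℂ)) (F z)).comp L := by
  have h1 : HasW (fun y => (φ y : ℂ)) _ _ z :=
    hasW_of_diff (Complex.ofRealCLM.differentiableAt.comp z hφ)
  have h2 : HasW (fun y => (φ' y : ℂ)) _ _ (F z) :=
    hasW_of_diff (Complex.ofRealCLM.differentiableAt.comp (F z) hφ')
  obtain ⟨Q, hQ⟩ := HasW.conj_holo ha
  have h3 := h1.exp_neg.smul ((HasW.of_holo ha).smul hQ)
  have h4 := comp_holo' h2.exp_neg hF
  have h5 : (fun y => ((Real.exp (-φ y) : ℝ) : ℂ) • (a y • conj (a y))) =ᶠ[𝓝 z]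
      fun y => ((Real.exp (-φ' (F y)) : ℝ) : ℂ) := by
    filter_upwards [h] with y hy
    rw [← hy, smul_eq_mul, smul_eq_mul, Complex.mul_conj, Complex.normSq_eq_norm_sq]
    push_cast; rfl
  have h6 := (h4.congr h5).pL_eq.symm.trans h3.pL_eq
  have h7 := h.self_of_nhds
  have h8 : ((Real.exp (-φ' (F z)) : ℝ) : ℂ) =
      (Real.exp (-φ z) : ℝ) * (a z * conj (a z)) := by
    rw [← h7, Complex.mul_conj, Complex.normSq_eq_norm_sq]
    push_cast; rfl
  have hE : ((Real.exp (-φ z) : ℝ) : ℂ) ≠ 0 := by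
    exact_mod_cast (Real.exp_pos _).ne'
  have hc : conj (a z) ≠ 0 := by simpa using ha0
  ext v
  have h9 := DFunLike.congr_fun h6 v
  simp only [ContinuousLinearMap.comp_apply, smul_apply, smul_eq_mul, add_apply,
    ContinuousLinearMap.smulRight_apply, zero_apply, mul_zero, add_zero] at h9 ⊢
  rw [h8] at h9
  refine mul_left_cancel₀ (mul_ne_zero hE hc) ?_
  linear_combination h9

section dh

open ContinuousAlternatingMap

/-- **pull back of `∂_h`** -/
theorem dhL_pull {F : Cm n → Cm q} {a : Cm n → ℂ} {φ : Cm n → ℝ} {φ' : Cm q → ℝ}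
    {η : Cm n → Af n p} {η' : Cm q → Af q p}
    {z : Cm n} (hF : AnalyticAt ℂ F z) (ha : AnalyticAt ℂ a z) (ha0 : a z ≠ 0)
    (hφ : DifferentiableAt ℝ φ z) (hφ' : DifferentiableAt ℝ φ' (F z))
    (h : ∀ᶠ y in 𝓝 z, Real.exp (-φ y) * ‖a y‖ ^ 2 = Real.exp (-φ' (F y)))
    (hη' : DifferentiableAt ℝ η' (F z))
    (hη : η =ᶠ[𝓝 z] fun y => a y • (η' (F y)).compContinuousLinearMap (fderiv ℂ F y)) :
    dhL φ η z = a z • (dhL φ' η' (F z)).compContinuousLinearMap (fderiv ℂ F z) := by
  set L := fderiv ℂ F z with hL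
  have hF1 : HasFDerivAt F L z := hF.differentiableAt.hasFDerivAt
  have ha1 : HasFDerivAt a (fderiv ℂ a z) z := ha.differentiableAt.hasFDerivAt
  have hF2 : HasFDerivAt (fderiv ℂ F) (fderiv ℂ (fderiv ℂ F) z) z :=
    hF.fderiv.differentiableAt.hasFDerivAt
  have h1 := (compCLM' (comp_holo' (hasW_of_diff hη') hF1) hF2)
  have h2 := ((HasW.of_holo ha1).smul h1).congr hη
  have hph := phi_chg' hF1 ha1 ha0 hφ hφ' h
  have hz : η z = a z • (η' (F z)).compContinuousLinearMap L := hη.self_of_nhds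
  have hsym : ∀ x y, fderiv ℂ (fderiv ℂ F) z x y = fderiv ℂ (fderiv ℂ F) z y x := by
    have := (hF.contDiffAt (n := ω)).isSymmSndFDerivAt (by simp)
    intro x y; exact this x y
  rw [dhL_eq, dhL_eq, h2.pL_eq, hz, ← alt_comp']
  have e1 : (pL (fun y => (φ y : ℂ)) z).smulRight (a z • (η' (F z)).compContinuousLinearMap L) =
      (a z • pL (fun y => (φ y : ℂ)) z).smulRight ((η' (F z)).compContinuousLinearMap L) := by
    ext1 v; simp [smul_smul, mul_comm]
  rw [e1, hph]
  have e2 : ((fderiv ℂ a z).smulRight ((η' (F z)).compContinuousLinearMap (fderiv ℂ F z)) +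
      a z • (compContinuousLinearMapCLM (fderiv ℂ F z) ∘L (pL η' (F z)).comp L +
        (η' (F z)).fderivCompContinuousLinearMap (fderiv ℂ F z) ∘L fderiv ℂ (fderiv ℂ F) z)) -
      (fderiv ℂ a z + a z • (pL (fun y => (φ' y : ℂ)) (F z)).comp L).smulRight
        ((η' (F z)).compContinuousLinearMap L) =
      a z • (compContinuousLinearMapCLM L ∘L
        (pL η' (F z) - (pL (fun y => (φ' y : ℂ)) (F z)).smulRight (η' (F z))) ∘L L) +
      a z • ((η' (F z)).fderivCompContinuousLinearMap L ∘L fderiv ℂ (fderiv ℂ F) z) := by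
    ext v w
    simp only [← hL, _root_.add_apply, _root_.sub_apply, _root_.smul_apply,
      ContinuousLinearMap.smulRight_apply, map_sub, map_smul,
      ContinuousAlternatingMap.add_apply, ContinuousAlternatingMap.sub_apply,
      ContinuousAlternatingMap.smul_apply,
      ContinuousLinearMap.comp_apply, compContinuousLinearMapCLM_apply, smul_eq_mul,
      ContinuousAlternatingMap.compContinuousLinearMap_apply]
    ring
  rw [e2, alternatizeUncurryFin_add, alternatizeUncurryFin_smul, alternatizeUncurryFin_smul,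
    alternatizeUncurryFin_fderivCompContinuousLinearMap_eq_zero _ _ hsym, smul_zero, add_zero]

end dh

/-- a form of degree `> q` on `C^q` is zero -/
lemma af_zero (A : Af q (q + 1)) : A = 0 := by
  ext v
  have h1 : ¬ LinearIndependent ℂ v := by
    intro h
    have := h.fintype_card_le_finrank
    simp at this
  exact A.toAlternatingMap.map_linearDependent v h1

end Vale.Agent.P284.H136.K8
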