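import Vale.Agent.P284.H553.K8.T
import Vale.Agent.P284.H752.K1
import Vale.Agent.P284.H419.K.Bas
import Vale.Agent.P284.H136.K8.Ch

/-!
# P284 (helper136), K8 (C): the section `s₀` in the framed charts
-/

open scoped Manifold ContDiff Topology ComplexConjugate ComplexOrder ENNReal InnerProductSpace
open Filter Set Metric MeasureTheory

noncomputable section

namespace Vale.Agent.P284.H136.K8

open Vale.Agent.P272.K Vale.Agent.P284.H573 Vale.Agent.P284.H395 Vale.Agent.P284.H998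
  Vale.Agent.P284.H998.U Vale.Agent.P284.H553.LB Vale.Agent.P284.H608.K Vale.Agent.P284.H837
  Vale.Agent.P284.H894 Vale.Agent.P284.H894.G Vale.Agent.P284.H553.K8

section
variable {n R m : ℕ} {X E : Type} [TopologicalSpace X] [ChartedSpace (Cm n) X] [TopologicalSpace E]
  {H : Type} [NormedAddCommGroup H] [InnerProductSpace ℂ H]
  {p : E → X} {v : E → Chart n X → (Fin R → Cm n) → H} [IsManifold 𝓘(ℂ, Cm n) ω X]
  {γ : Cm R → H} {b₀ : Cm R} {r : ℝ} {N : Set X} {β : X → Cm R} {x₀ : X}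

/-- the derivative of `β` in two charts -/
theorem fd_beta (hF : Lf m p v γ b₀ r N β x₀) {x : X} (hx : x ∈ N) {e e' : Chart n X}
    (he : At e x) (he' : At e' x) :
    fderiv ℂ (fun z => β (e'.symm z)) (e' x) =
      (fderiv ℂ (fun z => β (e.symm z)) (e x)).comp (tau e' e x) := by
  have h1 : (fun z => β (e'.symm z)) =ᶠ[𝓝 (e' x)] fun z => β (e.symm (e (e'.symm z))) := by
    filter_upwards [he'.nhds_at he] with z hz
    rw [hz.2.2.left_inv]
  have h2 : e (e'.symm (e' x)) = e x := by rw [he'.left_inv]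
  rw [h1.fderiv_eq]
  have h3 := fderiv_comp (𝕜 := ℂ) (g := fun z => β (e.symm z)) (f := fun z => e (e'.symm z)) (e' x)
    (by rw [h2]; exact (hF.an x hx e he).differentiableAt) (transition_differentiableAt he' he)
  rw [h2] at h3
  exact h3

theorem dF_change (hF : Lf m p v γ b₀ r N β x₀) {x : X} (hx : x ∈ N) {e e' : Chart n X}
    (he : At e x) (he' : At e' x) :
    dF (fun z => β (e'.symm z)) (e' x) =
      (dF (fun z => β (e.symm z)) (e x)).compContinuousLinearMap (tau e' e x) := by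
  unfold dF
  rw [fd_beta hF hx he he']
  rfl

theorem det_change (hF : Lf m p v γ b₀ r N β x₀) {x : X} (hx : x ∈ N) {e e' : Chart n X}
    (he : At e x) (he' : At e' x) (ξ : Fin R → Cm n) :
    (DM (fun z => β (e'.symm z)) (e' x) ξ).det =
      (DM (fun z => β (e.symm z)) (e x) fun k => tau e' e x (ξ k)).det := by
  rw [DM_eq, DM_eq, fd_beta hF hx he he']
  rfl

/-- **the values of `v` over the points of `N`** -/
theorem exists_u (hv : HForm n R m p H v) (hL : Line n p v (Zs p v))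
    (hF : Lf m p v γ b₀ r N β x₀) {x : X} (hx : x ∈ N) {y : E} (hy : p y = x) :
    ∃ u : H, ‖u‖ = ‖γ (β x)‖ ∧ ∀ e : Chart n X, At e x → ∀ ξ : Fin R → Cm n,
      v y e ξ = (DM (fun z => β (e.symm z)) (e x) ξ).det ^ m • u := by
  have he : At (chartAt (Cm n) x) x := at_chart x
  set e := chartAt (Cm n) x with hedef
  clear_value e
  obtain ⟨y₁, hy₁, h1⟩ := hF.nf x hx
  have h1 := (h1 e he).self_of_nhds
  rw [hy₁] at h1
  obtain ⟨c, G, ⟨ξ₀, hξ₀⟩, ⟨a, ha, hG⟩, hc⟩ := hL x (hF.off x hx) e he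
  have hγ : γ (β x) ≠ 0 := (hF.imm _ (hF.maps x hx)).1
  have hγ' : 0 < ‖γ (β x)‖ := norm_pos_iff.2 hγ
  set κ : ℂ := (DM (fun z => β (e.symm z)) (e x) ξ₀).det ^ m / c ξ₀ with hκ
  have h2 : G y₁ = κ • γ (β x) := by
    have := hc y₁ hy₁ ξ₀
    rw [h1 ξ₀] at this
    rw [hκ, div_eq_inv_mul, mul_smul, this, smul_smul, inv_mul_cancel₀ hξ₀, one_smul]
  have h3 : κ ≠ 0 := by
    intro h
    rw [h, zero_smul] at h2
    have := hG y₁ hy₁
    rw [h2, norm_zero] at this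
    exact ha.ne this
  have h4 : ∀ ξ, (DM (fun z => β (e.symm z)) (e x) ξ).det ^ m = c ξ * κ := by
    intro ξ
    have := hc y₁ hy₁ ξ
    rw [h1 ξ, h2, smul_smul] at this
    exact smul_left_injective ℂ hγ this
  have h5 : a = ‖κ‖ * ‖γ (β x)‖ := by rw [← hG y₁ hy₁, h2, norm_smul]
  have h6 : ∀ ξ : Fin R → Cm n,
      v y e ξ = (DM (fun z => β (e.symm z)) (e x) ξ).det ^ m • (κ⁻¹ • G y) := by
    intro ξ
    rw [h4, smul_smul, mul_assoc, mul_inv_cancel₀ h3, mul_one]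
    exact hc y hy ξ
  refine ⟨κ⁻¹ • G y, ?_, fun e' he' ξ => ?_⟩
  · rw [norm_smul, norm_inv, hG y hy, h5, ← mul_assoc, inv_mul_cancel₀ (norm_ne_zero_iff.2 h3),
      one_mul]
  · have h7 := hv.change y e' e (hy ▸ he') (hy ▸ he) ξ
    rw [hy] at h7
    rw [h7, h6, det_change hF hx he he' ξ]

end

section
variable {n R m : ℕ} {X E : Type} [TopologicalSpace X] [ChartedSpace (Cm n) X] [TopologicalSpace E]
  [MeasurableSpace X] {H : Type} [NormedAddCommGroup H] [InnerProductSpace ℂ H]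
  {p : E → X} {v : E → Chart n X → (Fin R → Cm n) → H}
  {h : Chart n X → Cm n → Matrix (Fin n) (Fin n) ℂ} {j : ℕ} {K : KA n (MZ p v)}
  {γ : Cm R → H} {b₀ : Cm R} {r : ℝ} {N : Set X} {β : X → Cm R} {x₀ : X}

variable (L : KL p v h j K)

theorem exists_of_tgt {i : K.I} {z : Cm n} (hz : z ∈ (K.e i).target) :
    ∃ x, x ∈ L.U i ∧ L.e i x = z ∧ (L.e i).symm z = x := by
  rw [L.tgt] at hz
  exact ⟨(L.e i).symm z, hz.2, (L.e i).right_inv hz.1, rfl⟩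

/-- the coefficient of `s₀` -/
def gI (m : ℕ) (γ : Cm R → H) (ℓ₀ : H →L[ℂ] ℂ) (β : X → Cm R) (f : Cm R → ℂ) (i : K.I)
    (z : Cm n) : ℂ :=
  f (β ((L.e i).symm z)) * (ℓ₀ (γ (β ((L.e i).symm z))) *
      (DM (fun z => β ((L.e i).symm z)) z (L.ξ i)).det ^ m /
        L.ℓ i (v (L.τ i ((L.e i).symm z)) (L.e i) (L.ξ i))) ^ j

theorem s0_in {m : ℕ} {ℓ₀ : H →L[ℂ] ℂ} {f : Cm R → ℂ} {i : K.I} {z : Cm n}
    (hz : z ∈ (K.e i).target) (hN : (L.e i).symm z ∈ N) :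
    L.s0 m γ ℓ₀ N β f i z =
      gI L m γ ℓ₀ β f i z • dF (fun z => β ((L.e i).symm z)) z := by
  unfold KL.s0
  rw [if_pos ⟨hz, hN⟩]
  rfl

theorem s0_out {m : ℕ} {ℓ₀ : H →L[ℂ] ℂ} {f : Cm R → ℂ} {i : K.I} {z : Cm n}
    (hN : (L.e i).symm z ∉ N) : L.s0 m γ ℓ₀ N β f i z = 0 := by
  unfold KL.s0
  rw [if_neg fun h => hN h.2]

theorem s0_off {m : ℕ} {ℓ₀ : H →L[ℂ] ℂ} {f : Cm R → ℂ} {i : K.I} {z : Cm n}
    (hz : z ∉ (K.e i).target) : L.s0 m γ ℓ₀ N β f i z = 0 := by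
  unfold KL.s0
  rw [if_neg fun h => hz h.1]

theorem s0_near {m : ℕ} {ℓ₀ : H →L[ℂ] ℂ} {f : Cm R → ℂ} {i : K.I} {x : X} (hN : IsOpen N)
    (hx : x ∈ L.U i) (hxN : x ∈ N) :
    L.s0 m γ ℓ₀ N β f i =ᶠ[𝓝 (L.e i x)] fun z =>
      gI L m γ ℓ₀ β f i z • dF (fun z => β ((L.e i).symm z)) z := by
  filter_upwards [(K.e i).open_target.mem_nhds (L.mem_tgt hx),
    ev_chart (L.atU hx) (hN.mem_nhds hxN)] with z hz hz'
  exact s0_in L hz hz'

/-- `s₀ = 0` near the points outside of `N` -/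
theorem s0_zero (hF : Lf m p v γ b₀ r N β x₀) {ℓ₀ : H →L[ℂ] ℂ} {f : Cm R → ℂ}
    (hf : HasCompactSupport f) (hfb : tsupport f ⊆ ball b₀ r) {i : K.I} {x : X}
    (hx : x ∈ L.U i) (hxN : x ∉ N) :
    L.s0 m γ ℓ₀ N β f i =ᶠ[𝓝 (L.e i x)] fun _ => 0 := by
  have h1 : x ∉ closure {x' ∈ N | β x' ∈ tsupport f} := fun h =>
    hxN (hF.closed _ hfb hf x (L.hUZ i x hx) h).1
  have h2 : ∀ᶠ x' in 𝓝 x, x' ∉ {x' ∈ N | β x' ∈ tsupport f} := by
    have := isClosed_closure.isOpen_compl.mem_nhds (show x ∈ (closure _)ᶜ from h1)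
    filter_upwards [this] with x' hx' h
    exact hx' (subset_closure h)
  filter_upwards [ev_chart (L.atU hx) h2] with z hz
  by_cases hN : (L.e i).symm z ∈ N
  · by_cases hz' : z ∈ (K.e i).target
    · rw [s0_in L hz' hN]
      have h3 : f (β ((L.e i).symm z)) = 0 := by
        by_contra h
        exact hz ⟨hN, subset_tsupport f h⟩
      rw [gI, h3, zero_mul]
      ext ξ
      simp
    · exact s0_off L hz'
  · exact s0_out L hN

/-- the coefficient of `s₀`, from a value `u` of `v` -/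
theorem gI_eq (hm : 1 ≤ m) {ℓ₀ : H →L[ℂ] ℂ} {f : Cm R → ℂ} {i : K.I} {x : X} (hx : x ∈ L.U i)
    {u : H} (hu : ∀ e : Chart n X, At e x → ∀ ξ : Fin R → Cm n,
      v (L.τ i x) e ξ = (DM (fun z => β (e.symm z)) (e x) ξ).det ^ m • u) :
    (DM (fun z => β ((L.e i).symm z)) (L.e i x) (L.ξ i)).det ≠ 0 ∧ L.ℓ i u ≠ 0 ∧
      gI L m γ ℓ₀ β f i (L.e i x) = f (β x) * (ℓ₀ (γ (β x)) / L.ℓ i u) ^ j := by
  have h1 : (L.e i).symm (L.e i x) = x := (L.atU hx).left_inv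
  have h2 := L.hne i x hx
  have h3 := hu (L.e i) (L.atU hx) (L.ξ i)
  rw [h3, map_smul, smul_eq_mul] at h2
  obtain ⟨h4, h5⟩ := mul_ne_zero_iff.1 h2
  have h6 : (DM (fun z => β ((L.e i).symm z)) (L.e i x) (L.ξ i)).det ≠ 0 := by
    intro h
    rw [h, zero_pow (by omega)] at h4
    exact h4 rfl
  refine ⟨h6, h5, ?_⟩
  unfold gI
  rw [h1, h3, map_smul, smul_eq_mul]
  congr 2
  field_simp

/-- the weight, from a value `u` of `v` -/
theorem exp_eq (hL : Line n p v (Zs p v)) (hv : HForm n R m p H v) {i : K.I} {x : X}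
    (hx : x ∈ L.U i)
    {u : H} (hu : ∀ e : Chart n X, At e x → ∀ ξ : Fin R → Cm n,
      v (L.τ i x) e ξ = (DM (fun z => β (e.symm z)) (e x) ξ).det ^ m • u) :
    ‖L.ℓ i u‖ ^ (2 * j) = Real.exp (-K.φ i (L.e i x)) * ‖u‖ ^ (2 * j) := by
  have h1 := L.weight hL hv hx (L.atU hx) (L.ξ i)
  have h2 := L.hne i x hx
  rw [hu (L.e i) (L.atU hx) (L.ξ i), map_smul, smul_eq_mul] at h1 h2
  obtain ⟨h4, h5⟩ := mul_ne_zero_iff.1 h2
  rw [norm_mul, norm_smul, mul_pow, mul_pow] at h1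
  have h6 : ‖(DM (fun z => β ((L.e i).symm z)) (L.e i x) (L.ξ i)).det ^ m‖ ^ (2 * j) ≠ 0 :=
    pow_ne_zero _ (norm_ne_zero_iff.2 h4)
  refine mul_left_cancel₀ h6 ?_
  rw [h1]; ring

/-- the transition functions, from values of `v` -/
theorem a_eq (hL : Line n p v (Zs p v)) (hv : HForm n R m p H v) {i i' : K.I} {x : X}
    (hx : x ∈ L.U i) (hx' : x ∈ L.U i')
    {u u' : H} (hu : ∀ e : Chart n X, At e x → ∀ ξ : Fin R → Cm n,
      v (L.τ i x) e ξ = (DM (fun z => β (e.symm z)) (e x) ξ).det ^ m • u)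
    (hu' : ∀ e : Chart n X, At e x → ∀ ξ : Fin R → Cm n,
      v (L.τ i' x) e ξ = (DM (fun z => β (e.symm z)) (e x) ξ).det ^ m • u') :
    K.a i i' (L.e i x) * L.ℓ i u ^ j = L.ℓ i' u' ^ j := by
  have h1 := L.a_mul hL hv hx hx' (L.atU hx) (L.ξ i)
  have h2 := L.hne i x hx
  rw [hu (L.e i) (L.atU hx) (L.ξ i), map_smul, smul_eq_mul] at h1 h2
  rw [hu' (L.e i) (L.atU hx) (L.ξ i), map_smul, smul_eq_mul] at h1
  obtain ⟨h4, h5⟩ := mul_ne_zero_iff.1 h2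
  have h6 : ((DM (fun z => β ((L.e i).symm z)) (L.e i x) (L.ξ i)).det ^ m) ^ j ≠ 0 :=
    pow_ne_zero _ h4
  refine mul_left_cancel₀ h6 ?_
  rw [mul_pow, mul_pow] at h1
  rw [← h1]; ring

theorem s0_form [IsManifold 𝓘(ℂ, Cm n) ω X] (hm : 1 ≤ m) (hL : Line n p v (Zs p v)) (hv : HForm n R m p H v)
    (hF : Lf m p v γ b₀ r N β x₀) (ℓ₀ : H →L[ℂ] ℂ) (f : Cm R → ℂ) :
    K.IsForm (L.s0 m γ ℓ₀ N β f) := by
  refine ⟨fun i i' x hx hx' => ?_, fun i z hz => s0_off L hz⟩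
  rw [L.src] at hx hx'
  have hx : x.1 ∈ L.U i := hx
  have hx' : x.1 ∈ L.U i' := hx'
  rw [L.app, L.app, L.trans_fderiv i' hx]
  by_cases hN : x.1 ∈ N
  · obtain ⟨u, -, hu⟩ := exists_u hv hL hF hN (L.hτ i _ hx)
    obtain ⟨u', -, hu'⟩ := exists_u hv hL hF hN (L.hτ i' _ hx')
    have h1 := a_eq L hL hv hx hx' hu hu'
    obtain ⟨h2, h3, h4⟩ := gI_eq L (γ := γ) (ℓ₀ := ℓ₀) (f := f) hm hx hu
    obtain ⟨h2', h3', h4'⟩ := gI_eq L (γ := γ) (ℓ₀ := ℓ₀) (f := f) hm hx' hu'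
    rw [s0_in L (L.mem_tgt hx) (by rw [(L.atU hx).left_inv]; exact hN),
      s0_in L (L.mem_tgt hx') (by rw [(L.atU hx').left_inv]; exact hN),
      dF_change hF hN (L.atU hx') (L.atU hx), h4, h4']
    have h5 : f (β x.1) * (ℓ₀ (γ (β x.1)) / L.ℓ i u) ^ j =
        K.a i i' (L.e i x.1) * (f (β x.1) * (ℓ₀ (γ (β x.1)) / L.ℓ i' u') ^ j) := by
      have h6 : L.ℓ i u ^ j ≠ 0 := pow_ne_zero _ h3
      have h7 : L.ℓ i' u' ^ j ≠ 0 := pow_ne_zero _ h3'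
      have h8 : K.a i i' (L.e i x.1) = L.ℓ i' u' ^ j / L.ℓ i u ^ j := by
        rw [← h1, mul_div_cancel_right₀ _ h6]
      rw [h8, div_pow, div_pow]
      field_simp
    rw [h5]
    ext ξ
    simp only [ContinuousAlternatingMap.smul_apply,
      ContinuousAlternatingMap.compContinuousLinearMap_apply, smul_eq_mul]
    ring
  · rw [s0_out L (by rw [(L.atU hx).left_inv]; exact hN),
      s0_out L (by rw [(L.atU hx').left_inv]; exact hN)]
    ext ξ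
    simp

end

end Vale.Agent.P284.H136.K8
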