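import Vale.Agent.P284.H136.K8.C1

/-!
# P284 (helper136), K8 (C): `s₀` is smooth, and `∂_h s₀ = 0`
-/

open scoped Manifold ContDiff Topology ComplexConjugate ComplexOrder ENNReal InnerProductSpace
open Filter Set Metric MeasureTheory

noncomputable section

namespace Vale.Agent.P284.H136.K8

open Vale.Agent.P272.K Vale.Agent.P284.H573 Vale.Agent.P284.H395 Vale.Agent.P284.H998
  Vale.Agent.P284.H998.U Vale.Agent.P284.H553.LB Vale.Agent.P284.H608.K Vale.Agent.P284.H837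
  Vale.Agent.P284.H894 Vale.Agent.P284.H894.G Vale.Agent.P284.H553.K8

/-- `dβ_1 ∧ … ∧ dβ_R` is smooth -/
theorem dF_smooth {n R : ℕ} {b : Cm n → Cm R} {z : Cm n} (hb : AnalyticAt ℂ b z) :
    ContDiffAt ℝ ∞ (dF b) z := by
  refine H419.K.contDiffAt_ev fun s => ?_
  have h1 : (fun z => ev (dF b z) s) = fun z => (DM b z fun i => Pi.single (s i) 1).det := by
    funext z
    exact dF_apply b z _
  rw [h1]
  exact (detDM_an' hb _).restrictScalars.contDiffAt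

section
variable {n R m : ℕ} {X E : Type} [TopologicalSpace X] [ChartedSpace (Cm n) X] [TopologicalSpace E]
  [MeasurableSpace X] {H : Type} [NormedAddCommGroup H] [InnerProductSpace ℂ H]
  {p : E → X} {v : E → Chart n X → (Fin R → Cm n) → H}
  {h : Chart n X → Cm n → Matrix (Fin n) (Fin n) ℂ} {j : ℕ} {K : KA n (MZ p v)}
  {γ : Cm R → H} {b₀ : Cm R} {r : ℝ} {N : Set X} {β : X → Cm R} {x₀ : X}

variable (L : KL p v h j K)

/-- the function `ℓ_i v` is analytic -/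
theorem W_an (hv : HForm n R m p H v) {i : K.I} {x : X} (hx : x ∈ L.U i) :
    AnalyticAt ℂ (fun z => L.ℓ i (v (L.τ i ((L.e i).symm z)) (L.e i) (L.ξ i))) (L.e i x) := by
  have hτ := L.hτ i x hx
  have he := L.atU hx
  obtain ⟨F, hF, hev⟩ := hv.hol (L.τ i x) (L.e i) (hτ.symm ▸ he)
  rw [hτ] at hF
  have h1 : ContinuousAt (L.τ i) x := (L.hτc i x hx).continuousAt ((L.hU i).mem_nhds hx)
  have h2 : ∀ᶠ z in 𝓝 (L.e i x), ∀ ξ, v (L.τ i ((L.e i).symm z)) (L.e i) ξ =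
      F (L.e i (p (L.τ i ((L.e i).symm z))), ξ) :=
    ev_chart he (P := fun x' => ∀ ξ, v (L.τ i x') (L.e i) ξ = F (L.e i (p (L.τ i x')), ξ))
      (h1.eventually hev)
  have h3 : (fun z => L.ℓ i (v (L.τ i ((L.e i).symm z)) (L.e i) (L.ξ i))) =ᶠ[𝓝 (L.e i x)]
      fun z => L.ℓ i (F (z, L.ξ i)) := by
    filter_upwards [h2, ev_chart he ((L.hU i).mem_nhds hx), ev_at' he] with z a1 a2 a3
    rw [a1, L.hτ i _ a2, a3.2.2]
  refine AnalyticAt.congr ?_ h3.symm
  have h4 : AnalyticAt ℂ (fun z : Cm n => F (z, L.ξ i)) (L.e i x) :=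
    AnalyticAt.fun_comp (g := F) (f := fun z => (z, L.ξ i)) (hF (L.ξ i))
      (analyticAt_id.prod analyticAt_const)
  exact AnalyticAt.fun_comp (g := fun u => L.ℓ i u) (f := fun z : Cm n => F (z, L.ξ i))
    (ContinuousLinearMap.analyticAt _ _) h4

theorem gI_smooth (hv : HForm n R m p H v) (hF : Lf m p v γ b₀ r N β x₀) {ℓ₀ : H →L[ℂ] ℂ}
    {f : Cm R → ℂ} (hf : ContDiff ℝ ∞ f) {i : K.I} {x : X} (hx : x ∈ L.U i) (hN : x ∈ N) :
    ContDiffAt ℝ ∞ (gI L m γ ℓ₀ β f i) (L.e i x) := by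
  have he := L.atU hx
  have hxx : (L.e i).symm (L.e i x) = x := he.left_inv
  have hb := hF.an x hN (L.e i) he
  have h1 : AnalyticAt ℂ (fun z => γ (β ((L.e i).symm z))) (L.e i x) := by
    refine AnalyticAt.fun_comp (g := γ) (f := fun z => β ((L.e i).symm z)) ?_ hb
    rw [hxx]
    exact hF.γan _ (hF.maps x hN)
  have h2 : AnalyticAt ℂ (fun z => ℓ₀ (γ (β ((L.e i).symm z)))) (L.e i x) :=
    AnalyticAt.fun_comp (g := fun u => ℓ₀ u) (f := fun z => γ (β ((L.e i).symm z)))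
      (ContinuousLinearMap.analyticAt _ _) h1
  have h3 := W_an L hv hx
  have h4 : AnalyticAt ℂ (fun z => (ℓ₀ (γ (β ((L.e i).symm z))) *
      (DM (fun z => β ((L.e i).symm z)) z (L.ξ i)).det ^ m /
        L.ℓ i (v (L.τ i ((L.e i).symm z)) (L.e i) (L.ξ i))) ^ j) (L.e i x) := by
    refine AnalyticAt.fun_pow (AnalyticAt.fun_div (h2.fun_mul ((detDM_an' hb _).fun_pow m)) h3 ?_) j
    show L.ℓ i (v (L.τ i ((L.e i).symm (L.e i x))) (L.e i) (L.ξ i)) ≠ 0
    rw [hxx]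
    exact L.hne i x hx
  have h5 : ContDiffAt ℝ ∞ (fun z => f (β ((L.e i).symm z))) (L.e i x) :=
    ContDiffAt.comp (g := f) (f := fun z => β ((L.e i).symm z)) (L.e i x) hf.contDiffAt
      hb.restrictScalars.contDiffAt
  exact h5.mul h4.restrictScalars.contDiffAt

theorem s0_smooth (hv : HForm n R m p H v) (hF : Lf m p v γ b₀ r N β x₀) {ℓ₀ : H →L[ℂ] ℂ}
    {f : Cm R → ℂ} (hf : ContDiff ℝ ∞ f) (hfc : HasCompactSupport f)
    (hfb : tsupport f ⊆ ball b₀ r) : K.Smooth (L.s0 m γ ℓ₀ N β f) := by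
  intro i z hz
  obtain ⟨x, hx, rfl, -⟩ := exists_of_tgt L hz
  by_cases hN : x ∈ N
  · refine ContDiffAt.congr_of_eventuallyEq ?_ (s0_near L hF.isOpen hx hN)
    exact (gI_smooth L hv hF hf hx hN).smul (dF_smooth (hF.an x hN _ (L.atU hx)))
  · exact ContDiffAt.congr_of_eventuallyEq contDiffAt_const (s0_zero L hF hfc hfb hx hN)

theorem dhL_zero {n q : ℕ} {φ : Cm n → ℝ} {η : Cm n → Af n q} {z : Cm n}
    (h : η =ᶠ[𝓝 z] fun _ => 0) : dhL φ η z = 0 := by
  have h1 : ∀ a, dzV a η z = 0 := by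
    intro a
    unfold dzV
    have h2 : fderiv ℝ η z = 0 := by
      rw [h.fderiv_eq]
      exact fderiv_const_apply _
    rw [h2]
    simp
  have h3 : η z = 0 := h.self_of_nhds
  unfold dhL
  have h4 : (∑ a, (ContinuousLinearMap.proj (R := ℂ) (φ := fun _ : Fin n => ℂ) a).smulRight
      (dzV a η z - dz a (fun y => (φ y : ℂ)) z • η z)) = 0 := by
    refine Finset.sum_eq_zero fun a _ => ?_
    rw [h1 a, h3]
    ext; simp
  rw [h4]
  ext v
  rw [ContinuousAlternatingMap.alternatizeUncurryFin_apply]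
  simp

/-- **`∂_h s₀ = 0`** -/
theorem s0_dh [IsManifold 𝓘(ℂ, Cm n) ω X] (hm : 1 ≤ m) (hL : Line n p v (Zs p v))
    (hv : HForm n R m p H v)
    (hF : Lf m p v γ b₀ r N β x₀) {ℓ₀ : H →L[ℂ] ℂ}
    {f : Cm R → ℂ} (hf : ContDiff ℝ ∞ f) (hfc : HasCompactSupport f)
    (hfb : tsupport f ⊆ ball b₀ r) : K.dh (L.s0 m γ ℓ₀ N β f) = 0 := by
  funext i z
  unfold KA.dh
  split_ifs with hz
  swap
  · rfl
  obtain ⟨x, hx, rfl, -⟩ := exists_of_tgt L hz
  by_cases hN : x ∈ N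
  swap
  · exact dhL_zero (s0_zero L hF hfc hfb hx hN)
  have he := L.atU hx
  have hxx : (L.e i).symm (L.e i x) = x := he.left_inv
  have hb := hF.an x hN (L.e i) he
  have hW := W_an L hv hx
  have hW0 : L.ℓ i (v (L.τ i ((L.e i).symm (L.e i x))) (L.e i) (L.ξ i)) ≠ 0 := by
    rw [hxx]; exact L.hne i x hx
  set F : Cm n → Cm R := fun z => β ((L.e i).symm z) with hFdef
  -- the factor
  set a : Cm n → ℂ := fun z => ((DM F z (L.ξ i)).det ^ m /
    L.ℓ i (v (L.τ i ((L.e i).symm z)) (L.e i) (L.ξ i))) ^ j with ha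
  have haan : AnalyticAt ℂ a (L.e i x) :=
    AnalyticAt.fun_pow (AnalyticAt.fun_div ((detDM_an' hb _).fun_pow m) hW hW0) j
  -- what happens at a point
  have key : ∀ x', x' ∈ L.U i → x' ∈ N → (DM F (L.e i x') (L.ξ i)).det ≠ 0 ∧
      Real.exp (-K.φ i (L.e i x')) * ‖a (L.e i x')‖ ^ 2 = (‖γ (β x')‖ ^ (2 * j))⁻¹ := by
    intro x' hx' hN'
    obtain ⟨u, hu0, hu⟩ := exists_u hv hL hF hN' (L.hτ i _ hx')
    have h1 := exp_eq L hL hv hx' hu
    obtain ⟨h2, h3, -⟩ := gI_eq L (γ := γ) (ℓ₀ := 0) (f := 0) hm hx' hu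
    refine ⟨h2, ?_⟩
    have h4 : ‖a (L.e i x')‖ ^ 2 = (‖L.ℓ i u‖ ^ (2 * j))⁻¹ := by
      have h5 : (L.e i).symm (L.e i x') = x' := (L.atU hx').left_inv
      show ‖((DM F (L.e i x') (L.ξ i)).det ^ m /
        L.ℓ i (v (L.τ i ((L.e i).symm (L.e i x'))) (L.e i) (L.ξ i))) ^ j‖ ^ 2 = _
      rw [h5, hu (L.e i) (L.atU hx') (L.ξ i), map_smul, smul_eq_mul]
      have h6 : (DM F (L.e i x') (L.ξ i)).det ^ m / ((DM F (L.e i x') (L.ξ i)).det ^ m * L.ℓ i u) =
          (L.ℓ i u)⁻¹ := by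
        have h7 : (DM F (L.e i x') (L.ξ i)).det ^ m ≠ 0 := pow_ne_zero _ h2
        field_simp
      rw [h6, norm_pow, norm_inv, ← pow_mul, inv_pow, mul_comm]
    have h8 : ‖L.ℓ i u‖ ^ (2 * j) ≠ 0 := pow_ne_zero _ (norm_ne_zero_iff.2 h3)
    rw [h4, ← hu0]
    have h9 : ‖u‖ ^ (2 * j) ≠ 0 := by
      intro h
      rw [h, mul_zero] at h1
      exact h8 h1
    rw [h1, mul_inv, ← mul_assoc, mul_inv_cancel₀ (Real.exp_pos _).ne', one_mul]
  have ha0 : a (L.e i x) ≠ 0 := by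
    refine pow_ne_zero _ (div_ne_zero (pow_ne_zero _ (key x hx hN).1) hW0)
  have hγ0 : γ (β x) ≠ 0 := (hF.imm _ (hF.maps x hN)).1
  have hFx : F (L.e i x) = β x := by rw [hFdef]; simp only [hxx]
  have hγan : AnalyticAt ℂ γ (β x) := hF.γan _ (hF.maps x hN)
  have h1 : dhL (K.φ i) (L.s0 m γ ℓ₀ N β f i) (L.e i x) = a (L.e i x) •
      (dhL (fun b => j * Real.log (‖γ b‖ ^ 2)) (fun b => (f b * ℓ₀ (γ b) ^ j) • detL R)
        (F (L.e i x))).compContinuousLinearMap (fderiv ℂ F (L.e i x)) := by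
    refine dhL_pull hb haan ha0 ((K.φsm i _ (L.mem_tgt hx)).differentiableAt (by simp)) ?_ ?_ ?_ ?_
    · rw [hFx]
      have h2 : DifferentiableAt ℝ (fun b => ‖γ b‖ ^ 2) (β x) :=
        (hγan.restrictScalars (𝕜 := ℝ)).differentiableAt.norm_sq ℂ
      exact (h2.log (by positivity)).const_mul _
    · filter_upwards [ev_chart he ((L.hU i).mem_nhds hx), ev_chart he (hF.isOpen.mem_nhds hN),
        ev_at' he] with z a1 a2 a3
      have h2 := (key _ a1 a2).2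
      rw [a3.2.2] at h2
      rw [h2]
      show _ = Real.exp (-(j * Real.log (‖γ (F z)‖ ^ 2)))
      have h3 : 0 < ‖γ (F z)‖ := norm_pos_iff.2 (hF.imm _ (hF.maps _ a2)).1
      rw [Real.exp_neg, Real.exp_nat_mul, Real.exp_log (by positivity), ← pow_mul]
    · rw [hFx]
      refine DifferentiableAt.smul_const ?_ _
      refine (hf.differentiable (by simp) _).mul (DifferentiableAt.pow ?_ _)
      exact ((ℓ₀.restrictScalars ℝ).differentiableAt).comp _
        (hγan.restrictScalars (𝕜 := ℝ)).differentiableAt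
    · refine (s0_near L hF.isOpen hx hN).trans (Eventually.of_forall fun z => ?_)
      show gI L m γ ℓ₀ β f i z • dF F z = a z •
        ((f (F z) * ℓ₀ (γ (F z)) ^ j) • detL R).compContinuousLinearMap (fderiv ℂ F z)
      have h2 : gI L m γ ℓ₀ β f i z = a z * (f (F z) * ℓ₀ (γ (F z)) ^ j) := by
        show f (F z) * (ℓ₀ (γ (F z)) * (DM F z (L.ξ i)).det ^ m /
          L.ℓ i (v (L.τ i ((L.e i).symm z)) (L.e i) (L.ξ i))) ^ j = _
        rw [ha, mul_div_assoc, mul_pow]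
        ring
      rw [h2]
      ext ξ
      simp only [ContinuousAlternatingMap.smul_apply, dF,
        ContinuousAlternatingMap.compContinuousLinearMap_apply, smul_eq_mul]
      ring
  rw [h1, af_zero (dhL _ _ _)]
  ext ξ
  simp

end

end Vale.Agent.P284.H136.K8
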