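import Vale.Agent.P284.H136.K8.C2

/-!
# P284 (helper136), K8 (C): the norm of `s₀`; proof of `CStmt`
-/

open scoped Manifold ContDiff Topology ComplexConjugate ComplexOrder ENNReal InnerProductSpace
open Filter Set Metric MeasureTheory

noncomputable section

namespace Vale.Agent.P284.H136.K8

open Vale.Agent.P272.K Vale.Agent.P284.H573 Vale.Agent.P284.H395 Vale.Agent.P284.H998
  Vale.Agent.P284.H998.U Vale.Agent.P284.H553.LB Vale.Agent.P284.H608.K Vale.Agent.P284.H837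
  Vale.Agent.P284.H894 Vale.Agent.P284.H894.G Vale.Agent.P284.H553.K8

theorem hn_zero {n q : ℕ} (w : Matrix (Fin n) (Fin n) ℂ) : hn w (0 : Af n q) (0 : Af n q) = 0 := by
  unfold hn ev
  simp

theorem hn_smul {n q : ℕ} (w : Matrix (Fin n) (Fin n) ℂ) (c : ℂ) (A : Af n q) :
    hn w (c • A) (c • A) = ((‖c‖ ^ 2 : ℝ) : ℂ) * hn w A A := by
  have h1 : ∀ s, ev (c • A) s = c * ev A s := fun s => rfl
  have h2 : ((‖c‖ ^ 2 : ℝ) : ℂ) = c * conj c := by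
    rw [Complex.mul_conj, Complex.normSq_eq_norm_sq]
  unfold hn
  rw [h2]
  simp only [h1, map_mul, Finset.mul_sum]
  refine Finset.sum_congr rfl fun s _ => Finset.sum_congr rfl fun t _ => ?_
  ring

section
variable {n R m : ℕ} {X E : Type} [TopologicalSpace X] [ChartedSpace (Cm n) X] [TopologicalSpace E]
  [MeasurableSpace X] {H : Type} [NormedAddCommGroup H] [InnerProductSpace ℂ H]
  {p : E → X} {v : E → Chart n X → (Fin R → Cm n) → H}
  {h : Chart n X → Cm n → Matrix (Fin n) (Fin n) ℂ} {j : ℕ} {K : KA n (MZ p v)}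
  {γ : Cm R → H} {b₀ : Cm R} {r : ℝ} {N : Set X} {β : X → Cm R} {x₀ : X}

variable (L : KL p v h j K)

theorem mem_ix (x : MZ p v) : x.1 ∈ L.U (K.ix x) := by
  have h1 : x ∈ (K.e (K.ix x)).source := (K.cover x).choose_spec
  rw [L.src] at h1
  exact h1

/-- the norm of `s₀` at the points outside of `N` -/
theorem s0_dn_out {ℓ₀ : H →L[ℂ] ℂ} {f : Cm R → ℂ} (x : MZ p v) (hN : x.1 ∉ N) :
    K.dn (L.s0 m γ ℓ₀ N β f) (L.s0 m γ ℓ₀ N β f) x = 0 := by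
  unfold KA.dn
  have hx := mem_ix L x
  rw [L.app, s0_out L (by rw [(L.atU hx).left_inv]; exact hN), hn_zero, mul_zero]

/-- the norm of `s₀` at the points of `N` -/
theorem s0_dn [IsManifold 𝓘(ℂ, Cm n) ω X] (hm : 1 ≤ m) (hh : KOff (Zs p v) h)
    (hL : Line n p v (Zs p v)) (hv : HForm n R m p H v)
    (hF : Lf m p v γ b₀ r N β x₀) {ℓ₀ : H →L[ℂ] ℂ} {f : Cm R → ℂ} (x : MZ p v) (hN : x.1 ∈ N) :
    (K.dn (L.s0 m γ ℓ₀ N β f) (L.s0 m γ ℓ₀ N β f) x).re =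
      ‖f (β x.1)‖ ^ 2 * rat γ ℓ₀ (β x.1) ^ j * mF h β x.1 := by
  unfold KA.dn
  have hx := mem_ix L x
  set i := K.ix x with hi
  clear_value i
  obtain ⟨u, hu0, hu⟩ := exists_u hv hL hF hN (L.hτ i _ hx)
  have h1 := exp_eq L hL hv hx hu
  obtain ⟨h2, h3, h4⟩ := gI_eq L (γ := γ) (ℓ₀ := ℓ₀) (f := f) hm hx hu
  rw [L.app, L.w i _ (L.mem_tgt hx), s0_in L (L.mem_tgt hx)
    (by rw [(L.atU hx).left_inv]; exact hN), hn_smul, h4,
    dF_change hF hN (at_chart x.1) (L.atU hx),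
    hn_chart H752.k1Stmt hh (L.atU hx) (at_chart x.1) x.2, ← mul_assoc, ← Complex.ofReal_mul,
    Complex.re_ofReal_mul]
  unfold mF
  congr 1
  have h8 : ‖L.ℓ i u‖ ^ (2 * j) ≠ 0 := pow_ne_zero _ (norm_ne_zero_iff.2 h3)
  have h9 : ‖u‖ ^ (2 * j) ≠ 0 := by
    intro h
    rw [h, mul_zero] at h1
    exact h8 h1
  have h10 : Real.exp (-K.φ i (L.e i x.1)) = ‖L.ℓ i u‖ ^ (2 * j) / ‖u‖ ^ (2 * j) := by
    rw [h1, mul_div_cancel_right₀ _ h9]
  rw [h10, norm_mul, mul_pow, norm_pow, norm_div, rat, ← hu0, div_pow, div_pow, div_pow,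
    ← pow_mul, ← pow_mul, ← pow_mul, ← pow_mul, mul_comm j 2]
  field_simp

end

/-- **(C)** of K8 -/
theorem cStmt : H553.K8.CStmt := by
  intro n R m X _ _ _ _ _ _ _ w h ρ E _ p H _ _ _ v hy γ b₀ r N β x₀ hF f hf hfc hfb ℓ₀ j K L
  exact ⟨s0_form L hy.hm hy.line hy.form hF ℓ₀ f, s0_smooth L hy.form hF hf hfc hfb,
    s0_dh L hy.hm hy.line hy.form hF hf hfc hfb, fun x hx => s0_dn_out L x hx,
    fun x hx => s0_dn L hy.hm hy.koff hy.line hy.form hF x hx⟩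

end Vale.Agent.P284.H136.K8
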